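import Vale.Agent.Lib.P160.AntiConc

/-!
# P160: block exposure count

If, among symmetric sign matrices with a property `P` that agree outside a `T x T` block,
the row sums of the block are determined, then `P` holds for at most
`G t t * 2 ^ (choose (n + 1) 2 - choose (t + 1) 2)` symmetric sign matrices.
-/

namespace Vale.Agent.Lib.P160

open Finset Matrix

section h23block

variable {ι : Type}

/-- Overwrite the `T x T` block by ones. -/
def h23out [DecidableEq ι] (T : Finset ι) (A : Matrix ι ι ℤˣ) : Matrix ι ι ℤˣ :=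
  fun i j => if i ∈ T ∧ j ∈ T then 1 else A i j

/-- The `T x T` block. -/
def h23blk (T : Finset ι) (A : Matrix ι ι ℤˣ) : Matrix {k // k ∈ T} {k // k ∈ T} ℤˣ :=
  fun i j => A i.1 j.1

/-- Put a block into the `T x T` positions. -/
def h23glue [DecidableEq ι] (T : Finset ι) (O : Matrix ι ι ℤˣ) (B : Matrix {k // k ∈ T} {k // k ∈ T} ℤˣ) :
    Matrix ι ι ℤˣ :=
  fun i j => if h : i ∈ T ∧ j ∈ T then B ⟨i, h.1⟩ ⟨j, h.2⟩ else O i j

theorem h23out_of_not [DecidableEq ι] (T : Finset ι) (A : Matrix ι ι ℤˣ) {i j : ι} (h : ¬ (i ∈ T ∧ j ∈ T)) :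
    h23out T A i j = A i j := by
  unfold h23out
  rw [if_neg h]

theorem h23out_of_mem [DecidableEq ι] (T : Finset ι) (A : Matrix ι ι ℤˣ) {i j : ι} (h : i ∈ T ∧ j ∈ T) :
    h23out T A i j = 1 := by
  unfold h23out
  rw [if_pos h]

theorem h23_eq_of_out_blk [DecidableEq ι] (T : Finset ι) {A A' : Matrix ι ι ℤˣ}
    (ho : h23out T A = h23out T A') (hb : h23blk T A = h23blk T A') : A = A' := by
  funext i j
  by_cases hij : i ∈ T ∧ j ∈ T
  · exact congrFun (congrFun hb ⟨i, hij.1⟩) ⟨j, hij.2⟩
  · have := congrFun (congrFun ho i) j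
    rw [h23out_of_not T A hij, h23out_of_not T A' hij] at this
    exact this

theorem h23blk_mem [Fintype ι] [DecidableEq ι] (T : Finset ι) {A : Matrix ι ι ℤˣ} (hA : A ∈ symSet ι) :
    h23blk T A ∈ symSet {k // k ∈ T} := by
  rw [mem_symSet] at hA ⊢
  intro a b
  exact hA a.1 b.1

theorem h23glue_mem [Fintype ι] [DecidableEq ι] (T : Finset ι) {A : Matrix ι ι ℤˣ} (hA : A ∈ symSet ι)
    {B : Matrix {k // k ∈ T} {k // k ∈ T} ℤˣ} (hB : B ∈ symSet {k // k ∈ T}) :
    h23glue T (h23out T A) B ∈ symSet ι := by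
  rw [mem_symSet] at hA hB ⊢
  intro a b
  unfold h23glue
  by_cases hab : a ∈ T ∧ b ∈ T
  · have hba : b ∈ T ∧ a ∈ T := ⟨hab.2, hab.1⟩
    rw [dif_pos hab, dif_pos hba]
    exact hB _ _
  · have hba : ¬ (b ∈ T ∧ a ∈ T) := fun h => hab ⟨h.2, h.1⟩
    rw [dif_neg hab, dif_neg hba, h23out_of_not T A hab, h23out_of_not T A hba]
    exact hA a b

theorem h23glue_blk [DecidableEq ι] (T : Finset ι) (O : Matrix ι ι ℤˣ)
    (B : Matrix {k // k ∈ T} {k // k ∈ T} ℤˣ) : h23blk T (h23glue T O B) = B := by
  funext i j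
  unfold h23blk h23glue
  rw [dif_pos ⟨i.2, j.2⟩]

theorem h23glue_out [DecidableEq ι] (T : Finset ι) (A : Matrix ι ι ℤˣ)
    (B : Matrix {k // k ∈ T} {k // k ∈ T} ℤˣ) :
    h23out T (h23glue T (h23out T A) B) = h23out T A := by
  funext i j
  by_cases hij : i ∈ T ∧ j ∈ T
  · rw [h23out_of_mem T _ hij, h23out_of_mem T _ hij]
  · rw [h23out_of_not T _ hij]
    unfold h23glue
    rw [dif_neg hij]

theorem h23_rowsum [Fintype ι] [DecidableEq ι] (T : Finset ι) (A : Matrix ι ι ℤˣ) (k : {k // k ∈ T}) :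
    (toR (h23blk T A) *ᵥ (fun _ => (1 : ℝ))) k = ∑ j ∈ T, ((A k.1 j : ℤ) : ℝ) := by
  rw [toR_mulVec]
  unfold sdot h23blk
  simp only [mul_one]
  exact Finset.sum_coe_sort T (fun j => ((A k.1 j : ℤ) : ℝ))

end h23block

open Classical in
theorem block_count {ι : Type} [Fintype ι] [DecidableEq ι] (T : Finset ι)
    (P : Matrix ι ι ℤˣ → Prop)
    (h : ∀ A ∈ symSet ι, ∀ B ∈ symSet ι, P A → P B →
      (∀ i j, ¬ (i ∈ T ∧ j ∈ T) → A i j = B i j) →
      ∀ i ∈ T, ∑ j ∈ T, ((A i j : ℤ) : ℝ) = ∑ j ∈ T, ((B i j : ℤ) : ℝ)) :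
    ((symSet ι).filter P).card * 2 ^ (Nat.choose (T.card + 1) 2) ≤
      G T.card T.card * (symSet ι).card := by
  set S := (symSet ι).filter P with hS
  have hcardT : Fintype.card {k // k ∈ T} = T.card := Fintype.card_coe T
  -- step 1: fibres of the exposure map are small
  have h1 : S.card ≤ G T.card T.card * (S.image (h23out T)).card := by
    apply Finset.card_le_mul_card_image
    intro O hO
    rw [Finset.mem_image] at hO
    obtain ⟨A0, hA0, rfl⟩ := hO
    have hA0s : A0 ∈ symSet ι := (Finset.mem_filter.mp hA0).1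
    have hA0P : P A0 := (Finset.mem_filter.mp hA0).2
    have hle : (S.filter fun A => h23out T A = h23out T A0).card ≤
        ((symSet {k // k ∈ T}).filter fun B =>
          toR B *ᵥ (fun _ => (1 : ℝ)) = fun i => ∑ j ∈ T, ((A0 i.1 j : ℤ) : ℝ)).card := by
      apply Finset.card_le_card_of_injOn (h23blk T)
      · intro A hA
        have hA' := Finset.mem_filter.mp (Finset.mem_coe.mp hA)
        have hAs : A ∈ symSet ι := (Finset.mem_filter.mp hA'.1).1
        have hAP : P A := (Finset.mem_filter.mp hA'.1).2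
        have hout : h23out T A = h23out T A0 := hA'.2
        rw [Finset.mem_coe, Finset.mem_filter]
        refine ⟨h23blk_mem T hAs, ?_⟩
        funext k
        rw [h23_rowsum]
        apply h A hAs A0 hA0s hAP hA0P _ k.1 k.2
        intro i j hij
        have := congrFun (congrFun hout i) j
        rw [h23out_of_not T A hij, h23out_of_not T A0 hij] at this
        exact this
      · intro A hA A' hA' hb
        have hAo := (Finset.mem_filter.mp (Finset.mem_coe.mp hA)).2
        have hAo' := (Finset.mem_filter.mp (Finset.mem_coe.mp hA')).2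
        exact h23_eq_of_out_blk T (hAo.trans hAo'.symm) hb
    refine le_trans hle ?_
    have hc := count_eq_le T.card {k // k ∈ T} hcardT (fun _ => (1 : ℝ))
      (fun i => ∑ j ∈ T, ((A0 i.1 j : ℤ) : ℝ))
    have hfil : (univ.filter fun j : {k // k ∈ T} => (fun _ => (1 : ℝ)) j ≠ 0).card = T.card := by
      have : (univ.filter fun j : {k // k ∈ T} => (fun _ => (1 : ℝ)) j ≠ 0) = univ := by
        apply Finset.filter_true_of_mem
        intro j _
        exact one_ne_zero
      rw [this, Finset.card_univ, hcardT]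
    rw [hfil] at hc
    exact hc
  -- step 2: gluing is injective
  have h2 : (S.image (h23out T)).card * (symSet {k // k ∈ T}).card ≤ (symSet ι).card := by
    rw [← Finset.card_product]
    apply Finset.card_le_card_of_injOn (fun p => h23glue T p.1 p.2)
    · intro p hp
      have hp' := Finset.mem_product.mp (Finset.mem_coe.mp hp)
      obtain ⟨A, hA, hAO⟩ := Finset.mem_image.mp hp'.1
      have hAs : A ∈ symSet ι := (Finset.mem_filter.mp hA).1
      rw [Finset.mem_coe]
      show h23glue T p.1 p.2 ∈ symSet ι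
      rw [← hAO]
      exact h23glue_mem T hAs hp'.2
    · intro p hp q hq hpq
      have hp' := Finset.mem_product.mp (Finset.mem_coe.mp hp)
      have hq' := Finset.mem_product.mp (Finset.mem_coe.mp hq)
      obtain ⟨A, hA, hAO⟩ := Finset.mem_image.mp hp'.1
      obtain ⟨A', hA', hAO'⟩ := Finset.mem_image.mp hq'.1
      have hpq' : h23glue T p.1 p.2 = h23glue T q.1 q.2 := hpq
      have hB : p.2 = q.2 := by
        have := congrArg (h23blk T) hpq'
        rwa [h23glue_blk, h23glue_blk] at this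
      have hO : p.1 = q.1 := by
        have := congrArg (h23out T) hpq'
        rw [← hAO, ← hAO', h23glue_out, h23glue_out] at this
        rw [← hAO, ← hAO']
        exact this
      exact Prod.ext hO hB
  rw [card_symSet, hcardT] at h2
  calc S.card * 2 ^ (Nat.choose (T.card + 1) 2)
      ≤ (G T.card T.card * (S.image (h23out T)).card) * 2 ^ (Nat.choose (T.card + 1) 2) :=
        Nat.mul_le_mul_right _ h1
    _ = G T.card T.card * ((S.image (h23out T)).card * 2 ^ (Nat.choose (T.card + 1) 2)) := by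
        ring
    _ ≤ G T.card T.card * (symSet ι).card := Nat.mul_le_mul_left _ h2

end Vale.Agent.Lib.P160
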