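import Vale.Agent.Lib.P160.Closed
import Vale.Agent.Lib.P160.helper23.Block

/-!
# P160: block exposure count, vector version

If, among symmetric sign matrices with a property `P` that agree outside a `T x T` block, a
vector `U A` and a right side `b A` are determined, the block satisfies
`A[T,T] (U A)|T = (b A)|T`, and `U A` has at least `s` nonzero coordinates in `T`, then `P`
holds for at most `G t s * 2 ^ (choose (n + 1) 2 - choose (t + 1) 2)` symmetric sign matrices.
-/

namespace Vale.Agent.Lib.P160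

open Finset Matrix

theorem h23_G_step {n s : ℕ} (h : s + 1 ≤ n) : G n (s + 1) ≤ G n s := by
  have h1 : ((G n (s + 1) : ℕ) : ℝ) ≤ ((G n s : ℕ) : ℝ) := by
    rw [G_eq' h, G_eq' (Nat.le_of_succ_le h), Qr_succ]
    have e : n - s = (n - (s + 1)) + 1 := by omega
    rw [e, pow_succ]
    have hL : Lr (s + 1) ≤ Lr s := Lr_succ_le s
    have hL0 : 0 ≤ Lr (s + 1) := (Lr_pos _).le
    have hpow : Lr (s + 1) ^ (n - (s + 1)) ≤ Lr s ^ (n - (s + 1)) :=
      pow_le_pow_left₀ hL0 hL _
    have hmul : Lr (s + 1) ^ (n - (s + 1)) * Lr (s + 1) ≤ Lr s ^ (n - (s + 1)) * Lr s :=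
      mul_le_mul hpow hL hL0 (pow_nonneg (Lr_pos s).le _)
    have hQ : 0 ≤ (2 : ℝ) ^ (Nat.choose (n + 1) 2) * Qr s :=
      mul_nonneg (by positivity) (Qr_pos s).le
    calc (2 : ℝ) ^ (Nat.choose (n + 1) 2) * Lr (s + 1) ^ (n - (s + 1)) * (Qr s * Lr (s + 1))
        = (2 : ℝ) ^ (Nat.choose (n + 1) 2) * Qr s *
            (Lr (s + 1) ^ (n - (s + 1)) * Lr (s + 1)) := by ring
      _ ≤ (2 : ℝ) ^ (Nat.choose (n + 1) 2) * Qr s * (Lr s ^ (n - (s + 1)) * Lr s) :=
          mul_le_mul_of_nonneg_left hmul hQ
      _ = (2 : ℝ) ^ (Nat.choose (n + 1) 2) * (Lr s ^ (n - (s + 1)) * Lr s) * Qr s := by ring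
  exact_mod_cast h1

theorem G_anti {n s s' : ℕ} (h : s ≤ s') (h' : s' ≤ n) : G n s' ≤ G n s := by
  induction s', h using Nat.le_induction with
  | base => exact le_rfl
  | succ m hm ih => exact (h23_G_step h').trans (ih (Nat.le_of_succ_le h'))

/-- Counting the elements of a subtype of a finset that satisfy a predicate. -/
theorem h23_card_filter_subtype {ι : Type} (T : Finset ι) (q : ι → Prop)
    [DecidablePred q] [DecidablePred fun j : {k // k ∈ T} => q j.1] [DecidableEq ι] :
    (univ.filter fun j : {k // k ∈ T} => q j.1).card = (T.filter q).card := by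
  rw [← Finset.card_image_of_injective _ Subtype.val_injective]
  congr 1
  ext x
  simp only [Finset.mem_image, Finset.mem_filter, Finset.mem_univ, true_and]
  constructor
  · rintro ⟨j, hj, rfl⟩
    exact ⟨j.2, hj⟩
  · rintro ⟨hx, hq⟩
    exact ⟨⟨x, hx⟩, hq, rfl⟩

theorem h23_rowsum_vec {ι : Type} [Fintype ι] [DecidableEq ι] (T : Finset ι)
    (A : Matrix ι ι ℤˣ) (u : ι → ℝ) (k : {k // k ∈ T}) :
    (toR (h23blk T A) *ᵥ (fun j : {k // k ∈ T} => u j.1)) k =
      ∑ j ∈ T, ((A k.1 j : ℤ) : ℝ) * u j := by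
  rw [toR_mulVec]
  unfold sdot h23blk
  exact Finset.sum_coe_sort T (fun j => ((A k.1 j : ℤ) : ℝ) * u j)

open Classical in
theorem block_count_vec {ι : Type} [Fintype ι] [DecidableEq ι] (T : Finset ι) (s : ℕ)
    (P : Matrix ι ι ℤˣ → Prop) (U b : Matrix ι ι ℤˣ → ι → ℝ)
    (hU : ∀ A ∈ symSet ι, ∀ B ∈ symSet ι, P A → P B →
      (∀ i j, ¬ (i ∈ T ∧ j ∈ T) → A i j = B i j) → U A = U B ∧ b A = b B)
    (hP : ∀ A ∈ symSet ι, P A →
      (∀ i ∈ T, ∑ j ∈ T, ((A i j : ℤ) : ℝ) * U A j = b A i) ∧
        s ≤ (T.filter fun j => U A j ≠ 0).card) :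
    ((symSet ι).filter P).card * 2 ^ (Nat.choose (T.card + 1) 2) ≤
      G T.card s * (symSet ι).card := by
  set S := (symSet ι).filter P with hS
  have hcardT : Fintype.card {k // k ∈ T} = T.card := Fintype.card_coe T
  -- step 1: fibres of the exposure map are small
  have h1 : S.card ≤ G T.card s * (S.image (h23out T)).card := by
    apply Finset.card_le_mul_card_image
    intro O hO
    rw [Finset.mem_image] at hO
    obtain ⟨A0, hA0, rfl⟩ := hO
    have hA0s : A0 ∈ symSet ι := (Finset.mem_filter.mp hA0).1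
    have hA0P : P A0 := (Finset.mem_filter.mp hA0).2
    have hle : (S.filter fun A => h23out T A = h23out T A0).card ≤
        ((symSet {k // k ∈ T}).filter fun B =>
          toR B *ᵥ (fun j : {k // k ∈ T} => U A0 j.1) = fun i => b A0 i.1).card := by
      apply Finset.card_le_card_of_injOn (h23blk T)
      · intro A hA
        have hA' := Finset.mem_filter.mp (Finset.mem_coe.mp hA)
        have hAs : A ∈ symSet ι := (Finset.mem_filter.mp hA'.1).1
        have hAP : P A := (Finset.mem_filter.mp hA'.1).2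
        have hout : h23out T A = h23out T A0 := hA'.2
        have hag : ∀ i j, ¬ (i ∈ T ∧ j ∈ T) → A i j = A0 i j := by
          intro i j hij
          have := congrFun (congrFun hout i) j
          rw [h23out_of_not T A hij, h23out_of_not T A0 hij] at this
          exact this
        obtain ⟨hUe, hbe⟩ := hU A hAs A0 hA0s hAP hA0P hag
        rw [Finset.mem_coe, Finset.mem_filter]
        refine ⟨h23blk_mem T hAs, ?_⟩
        funext k
        rw [h23_rowsum_vec, ← hUe, ← hbe]
        exact (hP A hAs hAP).1 k.1 k.2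
      · intro A hA A' hA' hb
        have hAo := (Finset.mem_filter.mp (Finset.mem_coe.mp hA)).2
        have hAo' := (Finset.mem_filter.mp (Finset.mem_coe.mp hA')).2
        exact h23_eq_of_out_blk T (hAo.trans hAo'.symm) hb
    refine le_trans hle ?_
    have hc := count_eq_le T.card {k // k ∈ T} hcardT (fun j : {k // k ∈ T} => U A0 j.1)
      (fun i => b A0 i.1)
    refine le_trans hc ?_
    apply G_anti
    · have hs := (hP A0 hA0s hA0P).2
      have hcf := h23_card_filter_subtype T (fun j => U A0 j ≠ 0)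
      have hcf' : (univ.filter fun j : {k // k ∈ T} => U A0 j.1 ≠ 0).card =
          (T.filter fun j => U A0 j ≠ 0).card := by
        convert hcf
      rw [← hcf'] at hs
      convert hs
    · have := Finset.card_filter_le (univ : Finset {k // k ∈ T})
        (fun j : {k // k ∈ T} => U A0 j.1 ≠ 0)
      rw [Finset.card_univ, hcardT] at this
      convert this
  -- step 2: gluing is injective
  have h2 : (S.image (h23out T)).card * (symSet {k // k ∈ T}).card ≤ (symSet ι).card := by
    rw [← Finset.card_product]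
    apply Finset.card_le_card_of_injOn (fun p => h23glue T p.1 p.2)
    · intro p hp
      have hp' := Finset.mem_product.mp (Finset.mem_coe.mp hp)
      obtain ⟨A, hA, hAO⟩ := Finset.mem_image.mp hp'.1
      have hAs : A ∈ symSet ι := (Finset.mem_filter.mp hA).1
      rw [Finset.mem_coe]
      show h23glue T p.1 p.2 ∈ symSet ι
      rw [← hAO]
      exact h23glue_mem T hAs hp'.2
    · intro p hp q hq hpq
      have hp' := Finset.mem_product.mp (Finset.mem_coe.mp hp)
      have hq' := Finset.mem_product.mp (Finset.mem_coe.mp hq)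
      obtain ⟨A, hA, hAO⟩ := Finset.mem_image.mp hp'.1
      obtain ⟨A', hA', hAO'⟩ := Finset.mem_image.mp hq'.1
      have hpq' : h23glue T p.1 p.2 = h23glue T q.1 q.2 := hpq
      have hB : p.2 = q.2 := by
        have := congrArg (h23blk T) hpq'
        rwa [h23glue_blk, h23glue_blk] at this
      have hO : p.1 = q.1 := by
        have := congrArg (h23out T) hpq'
        rw [← hAO, ← hAO', h23glue_out, h23glue_out] at this
        rw [← hAO, ← hAO']
        exact this
      exact Prod.ext hO hB
  rw [card_symSet, hcardT] at h2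
  calc S.card * 2 ^ (Nat.choose (T.card + 1) 2)
      ≤ (G T.card s * (S.image (h23out T)).card) * 2 ^ (Nat.choose (T.card + 1) 2) :=
        Nat.mul_le_mul_right _ h1
    _ = G T.card s * ((S.image (h23out T)).card * 2 ^ (Nat.choose (T.card + 1) 2)) := by
        ring
    _ ≤ G T.card s * (symSet ι).card := Nat.mul_le_mul_left _ h2

end Vale.Agent.Lib.P160
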