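import Vale.Agent.Lib.P160.AntiConc
import Vale.Agent.Lib.P160.Sparse2

/-!
# P160: determination of the block row sums

Two symmetric sign matrices that agree outside a `T x T` block and both have a null vector
equal to `1` off `S` (with `S` disjoint from `T`) have the same row sums on the block, as soon
as every vector supported on `S` and orthogonal to the rows in `R` (a row set disjoint from
`T`) is orthogonal to all rows of the first matrix.
-/

namespace Vale.Agent.Lib.P160

open Finset Matrix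

theorem h23_sdot_sub {ι : Type} [Fintype ι] (x : ι → ℤˣ) (u w : ι → ℝ) :
    sdot x (u - w) = sdot x u - sdot x w := by
  unfold sdot
  rw [← Finset.sum_sub_distrib]
  exact Finset.sum_congr rfl fun j _ => by simp [mul_sub]

theorem h23_determine {ι : Type} [Fintype ι] [DecidableEq ι] (S R T : Finset ι)
    (hST : Disjoint S T) (hRT : Disjoint R T)
    (A B : Matrix ι ι ℤˣ)
    (hAB : ∀ i j, ¬ (i ∈ T ∧ j ∈ T) → A i j = B i j)
    (hstar : ∀ i, ∀ u, IsAnn S R A u → sdot (A i) u = 0)
    (v w : ι → ℝ) (hv : ∀ j, j ∉ S → v j = 1) (hw : ∀ j, j ∉ S → w j = 1)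
    (hAv : toR A *ᵥ v = 0) (hBw : toR B *ᵥ w = 0) :
    ∀ i ∈ T, ∑ j ∈ T, ((A i j : ℤ) : ℝ) = ∑ j ∈ T, ((B i j : ℤ) : ℝ) := by
  have hAv' : ∀ r, sdot (A r) v = 0 := by
    intro r
    have := congrFun hAv r
    rwa [toR_mulVec] at this
  have hBw' : ∀ r, sdot (B r) w = 0 := by
    intro r
    have := congrFun hBw r
    rwa [toR_mulVec] at this
  have hrow : ∀ r, r ∉ T → A r = B r := by
    intro r hr
    funext j
    exact hAB r j (fun h => hr h.1)
  have hann : IsAnn S R A (v - w) := by
    refine ⟨fun j hj => ?_, fun r hr => ?_⟩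
    · simp [hv j hj, hw j hj]
    · have hrT : r ∉ T := Finset.disjoint_left.mp hRT hr
      rw [h23_sdot_sub, hAv' r, hrow r hrT, hBw' r, sub_zero]
  intro i hi
  have h1 : sdot (A i) (v - w) = 0 := hstar i (v - w) hann
  rw [h23_sdot_sub, hAv' i] at h1
  have h2 : sdot (A i) w = 0 := by linarith
  have h3 : sdot (A i) w - sdot (B i) w = 0 := by rw [h2, hBw' i, sub_zero]
  have h4 : sdot (A i) w - sdot (B i) w =
      ∑ j ∈ T, (((A i j : ℤ) : ℝ) - ((B i j : ℤ) : ℝ)) := by
    unfold sdot
    rw [← Finset.sum_sub_distrib]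
    have hterm : ∀ j, ((A i j : ℤ) : ℝ) * w j - ((B i j : ℤ) : ℝ) * w j =
        if j ∈ T then ((A i j : ℤ) : ℝ) - ((B i j : ℤ) : ℝ) else 0 := by
      intro j
      by_cases hj : j ∈ T
      · have hjS : j ∉ S := Finset.disjoint_right.mp hST hj
        rw [if_pos hj, hw j hjS, mul_one, mul_one]
      · rw [if_neg hj, hAB i j (fun h => hj h.2), sub_self]
    rw [Finset.sum_congr rfl fun j _ => hterm j, Finset.sum_ite_mem, Finset.univ_inter]
  rw [h4, Finset.sum_sub_distrib] at h3
  linarith

end Vale.Agent.Lib.P160
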