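import Vale.Agent.Lib.P160.helper23.Block
import Vale.Agent.Lib.P160.helper23.Determine
import Vale.Agent.Lib.P160.Dense1

/-!
# P160: counting symmetric sign matrices with a null vector equal to one off a set `S`

If the block of `A` on `S` has corank at most `k`, a block `T` of size `t` inside the
complement of `S` can be exposed last, and the row sums of that block are then determined.
-/

namespace Vale.Agent.Lib.P160

open Finset Matrix

open Classical in
/-- For a fixed block `T` disjoint from `S`: the symmetric sign matrices having a null vector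
equal to `1` off `S`, and such that every vector supported on `S` and orthogonal to the rows
outside `T` is orthogonal to all rows, number at most `G t t * 2 ^ (choose (n+1) 2) /
2 ^ (choose (t+1) 2)`. -/
theorem h23_block_level {ι : Type} [Fintype ι] [DecidableEq ι] (S T : Finset ι)
    (hST : Disjoint S T) :
    ((symSet ι).filter fun A =>
        (∃ v : ι → ℝ, (∀ j, j ∉ S → v j = 1) ∧ toR A *ᵥ v = 0) ∧
        ∀ i, ∀ u, IsAnn S (univ \ T) A u → sdot (A i) u = 0).card *
      2 ^ (Nat.choose (T.card + 1) 2) ≤ G T.card T.card * (symSet ι).card := by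
  have key := block_count T (fun A =>
      (∃ v : ι → ℝ, (∀ j, j ∉ S → v j = 1) ∧ toR A *ᵥ v = 0) ∧
      ∀ i, ∀ u, IsAnn S (univ \ T) A u → sdot (A i) u = 0) (by
    intro A _ B _ hPA hPB hAB
    obtain ⟨⟨v, hv, hAv⟩, hstar⟩ := hPA
    obtain ⟨⟨w, hw, hBw⟩, -⟩ := hPB
    exact h23_determine S (univ \ T) T hST Finset.sdiff_disjoint A B hAB hstar v w hv hw
      hAv hBw)
  convert key

open Classical in
/-- The symmetric sign matrices having a null vector equal to `1` off `S` and whose block on
`S` has corank at most `k`: union over the blocks `T` of size `t` in the complement of `S`. -/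
theorem h23_level_count {ι : Type} [Fintype ι] [DecidableEq ι] (S : Finset ι) (k t : ℕ)
    (hkt : k + t ≤ (univ \ S).card) :
    ((symSet ι).filter fun A =>
        (∃ v : ι → ℝ, (∀ j, j ∉ S → v j = 1) ∧ toR A *ᵥ v = 0) ∧
        Module.finrank ℝ (annSub S S A) ≤ k).card * 2 ^ (Nat.choose (t + 1) 2) ≤
      (univ \ S).card.choose t * (G t t * (symSet ι).card) := by
  set Z : Finset ι := univ \ S with hZ
  set ev : Finset ι → Finset (Matrix ι ι ℤˣ) := fun T =>
    (symSet ι).filter fun A =>
      (∃ v : ι → ℝ, (∀ j, j ∉ S → v j = 1) ∧ toR A *ᵥ v = 0) ∧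
      ∀ i, ∀ u, IsAnn S (univ \ T) A u → sdot (A i) u = 0 with hev
  have hsub : ((symSet ι).filter fun A =>
        (∃ v : ι → ℝ, (∀ j, j ∉ S → v j = 1) ∧ toR A *ᵥ v = 0) ∧
        Module.finrank ℝ (annSub S S A) ≤ k) ⊆ (Z.powersetCard t).biUnion ev := by
    intro A hA
    rw [Finset.mem_filter] at hA
    obtain ⟨hAs, hnull, hrank⟩ := hA
    obtain ⟨I', -, hI'S, hI'card, hstar⟩ :=
      exists_rows_union S A (Module.finrank ℝ (annSub S (S ∪ ∅) A)) ∅
        (Finset.disjoint_empty_left S) le_rfl
    rw [Finset.union_empty, Finset.card_empty, zero_add] at hI'card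
    have hI'k : I'.card ≤ k := by omega
    have hcard : t ≤ (Z \ I').card := by
      have := Finset.le_card_sdiff I' Z
      omega
    obtain ⟨T, hTsub, hTcard⟩ := Finset.exists_subset_card_eq hcard
    have hTZ : T ⊆ Z := hTsub.trans Finset.sdiff_subset
    rw [Finset.mem_biUnion]
    refine ⟨T, Finset.mem_powersetCard.mpr ⟨hTZ, hTcard⟩, ?_⟩
    rw [hev, Finset.mem_filter]
    refine ⟨hAs, hnull, ?_⟩
    intro i u hu
    apply hstar i u
    refine ⟨hu.1, fun r hr => hu.2 r ?_⟩
    rw [Finset.mem_sdiff]
    refine ⟨Finset.mem_univ r, fun hrT => ?_⟩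
    have hrZ := hTsub hrT
    rw [Finset.mem_sdiff] at hrZ
    rcases Finset.mem_union.mp hr with hrS | hrI
    · have := hrZ.1
      rw [hZ, Finset.mem_sdiff] at this
      exact this.2 hrS
    · exact hrZ.2 hrI
  have hone : ∀ T ∈ Z.powersetCard t,
      (ev T).card * 2 ^ (Nat.choose (t + 1) 2) ≤ G t t * (symSet ι).card := by
    intro T hT
    rw [Finset.mem_powersetCard] at hT
    have hST : Disjoint S T := by
      rw [Finset.disjoint_left]
      intro j hjS hjT
      have := hT.1 hjT
      rw [hZ, Finset.mem_sdiff] at this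
      exact this.2 hjS
    have := h23_block_level S T hST
    rw [hT.2] at this
    exact this
  calc ((symSet ι).filter fun A =>
        (∃ v : ι → ℝ, (∀ j, j ∉ S → v j = 1) ∧ toR A *ᵥ v = 0) ∧
        Module.finrank ℝ (annSub S S A) ≤ k).card * 2 ^ (Nat.choose (t + 1) 2)
      ≤ ((Z.powersetCard t).biUnion ev).card * 2 ^ (Nat.choose (t + 1) 2) :=
        Nat.mul_le_mul_right _ (Finset.card_le_card hsub)
    _ ≤ (∑ T ∈ Z.powersetCard t, (ev T).card) * 2 ^ (Nat.choose (t + 1) 2) :=
        Nat.mul_le_mul_right _ Finset.card_biUnion_le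
    _ = ∑ T ∈ Z.powersetCard t, (ev T).card * 2 ^ (Nat.choose (t + 1) 2) :=
        Finset.sum_mul _ _ _
    _ ≤ ∑ _T ∈ Z.powersetCard t, G t t * (symSet ι).card := Finset.sum_le_sum hone
    _ = Z.card.choose t * (G t t * (symSet ι).card) := by
        rw [Finset.sum_const, Finset.card_powersetCard, smul_eq_mul]

end Vale.Agent.Lib.P160
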