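import Vale.Agent.Lib.P160.helper23.LevelCount
import Vale.Agent.Lib.P160.Closed

/-!
# P160: symmetric sign matrices with a null vector having a large nonzero level set

Union over the level set `Z` of size `z` of the count for a fixed `Z`, split according to the
corank of the block on the complement of `Z`.
-/

namespace Vale.Agent.Lib.P160

open Finset Matrix

open Classical in
/-- Fixed `S`: symmetric sign matrices with a null vector equal to `1` off `S`. -/
theorem h23_levelS_count {ι : Type} [Fintype ι] [DecidableEq ι] (S : Finset ι) (k t : ℕ)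
    (hkt : k + t ≤ (univ \ S).card) :
    ((symSet ι).filter fun A =>
        ∃ v : ι → ℝ, (∀ j, j ∉ S → v j = 1) ∧ toR A *ᵥ v = 0).card *
      (2 ^ (Nat.choose (t + 1) 2) * 2 ^ (Nat.choose (k + 1) 2)) ≤
      ((univ \ S).card.choose t * G t t * 2 ^ (Nat.choose (k + 1) 2) +
        2 ^ S.card * 2 ^ (Nat.choose (t + 1) 2)) * (symSet ι).card := by
  have h1 := h23_level_count S k t hkt
  have h2 := corank_count S.card ι S (k + 1) rfl
  have hsub : ((symSet ι).filter fun A =>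
        ∃ v : ι → ℝ, (∀ j, j ∉ S → v j = 1) ∧ toR A *ᵥ v = 0) ⊆
      ((symSet ι).filter fun A =>
        (∃ v : ι → ℝ, (∀ j, j ∉ S → v j = 1) ∧ toR A *ᵥ v = 0) ∧
        Module.finrank ℝ (annSub S S A) ≤ k) ∪
      ((symSet ι).filter fun A => k + 1 ≤ Module.finrank ℝ (annSub S S A)) := by
    intro A hA
    rw [Finset.mem_filter] at hA
    rw [Finset.mem_union, Finset.mem_filter, Finset.mem_filter]
    by_cases hr : Module.finrank ℝ (annSub S S A) ≤ k
    · exact Or.inl ⟨hA.1, hA.2, hr⟩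
    · exact Or.inr ⟨hA.1, by omega⟩
  have hle := (Finset.card_le_card hsub).trans (Finset.card_union_le _ _)
  set E1 := ((symSet ι).filter fun A =>
        (∃ v : ι → ℝ, (∀ j, j ∉ S → v j = 1) ∧ toR A *ᵥ v = 0) ∧
        Module.finrank ℝ (annSub S S A) ≤ k).card with hE1
  set E2 := ((symSet ι).filter fun A => k + 1 ≤ Module.finrank ℝ (annSub S S A)).card with hE2
  set a := 2 ^ (Nat.choose (t + 1) 2) with ha
  set b := 2 ^ (Nat.choose (k + 1) 2) with hb
  set N := (symSet ι).card with hN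
  calc ((symSet ι).filter fun A =>
        ∃ v : ι → ℝ, (∀ j, j ∉ S → v j = 1) ∧ toR A *ᵥ v = 0).card * (a * b)
      ≤ (E1 + E2) * (a * b) := Nat.mul_le_mul_right _ hle
    _ = (E1 * a) * b + (E2 * b) * a := by ring
    _ ≤ ((univ \ S).card.choose t * (G t t * N)) * b + (2 ^ S.card * N) * a :=
        Nat.add_le_add (Nat.mul_le_mul_right _ h1) (Nat.mul_le_mul_right _ h2)
    _ = ((univ \ S).card.choose t * G t t * b + 2 ^ S.card * a) * N := by ring

open Classical in
/-- Symmetric sign matrices having a null vector with at least `z` coordinates equal to one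
common nonzero value. -/
theorem h23_levelset_count {ι : Type} [Fintype ι] [DecidableEq ι] (z k t : ℕ)
    (hkt : k + t ≤ z) :
    ((symSet ι).filter fun A => ∃ v : ι → ℝ, ∃ c : ℝ, c ≠ 0 ∧
        z ≤ (univ.filter fun j => v j = c).card ∧ toR A *ᵥ v = 0).card *
      (2 ^ (Nat.choose (t + 1) 2) * 2 ^ (Nat.choose (k + 1) 2)) ≤
      (Fintype.card ι).choose z * ((z.choose t * G t t * 2 ^ (Nat.choose (k + 1) 2) +
        2 ^ (Fintype.card ι - z) * 2 ^ (Nat.choose (t + 1) 2)) * (symSet ι).card) := by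
  set ev : Finset ι → Finset (Matrix ι ι ℤˣ) := fun Z =>
    (symSet ι).filter fun A =>
      ∃ v : ι → ℝ, (∀ j, j ∉ univ \ Z → v j = 1) ∧ toR A *ᵥ v = 0 with hev
  have hsub : ((symSet ι).filter fun A => ∃ v : ι → ℝ, ∃ c : ℝ, c ≠ 0 ∧
        z ≤ (univ.filter fun j => v j = c).card ∧ toR A *ᵥ v = 0) ⊆
      ((univ : Finset ι).powersetCard z).biUnion ev := by
    intro A hA
    rw [Finset.mem_filter] at hA
    obtain ⟨hAs, v, c, hc, hz, hAv⟩ := hA
    obtain ⟨Z, hZsub, hZcard⟩ := Finset.exists_subset_card_eq hz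
    rw [Finset.mem_biUnion]
    refine ⟨Z, Finset.mem_powersetCard.mpr ⟨Finset.subset_univ Z, hZcard⟩, ?_⟩
    rw [hev, Finset.mem_filter]
    refine ⟨hAs, c⁻¹ • v, ?_, ?_⟩
    · intro j hj
      have hjZ : j ∈ Z := by
        by_contra hjn
        exact hj (Finset.mem_sdiff.mpr ⟨Finset.mem_univ j, hjn⟩)
      have hvj : v j = c := (Finset.mem_filter.mp (hZsub hjZ)).2
      rw [Pi.smul_apply, hvj, smul_eq_mul, inv_mul_cancel₀ hc]
    · rw [Matrix.mulVec_smul, hAv, smul_zero]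
  have hone : ∀ Z ∈ (univ : Finset ι).powersetCard z,
      (ev Z).card * (2 ^ (Nat.choose (t + 1) 2) * 2 ^ (Nat.choose (k + 1) 2)) ≤
        (z.choose t * G t t * 2 ^ (Nat.choose (k + 1) 2) +
          2 ^ (Fintype.card ι - z) * 2 ^ (Nat.choose (t + 1) 2)) * (symSet ι).card := by
    intro Z hZ
    rw [Finset.mem_powersetCard] at hZ
    have hZZ : univ \ (univ \ Z) = Z := Finset.sdiff_sdiff_eq_self (Finset.subset_univ Z)
    have hScard : (univ \ Z).card = Fintype.card ι - z := by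
      rw [Finset.card_univ_sdiff, hZ.2]
    have := h23_levelS_count (univ \ Z) k t (by rw [hZZ, hZ.2]; exact hkt)
    rw [hZZ, hZ.2, hScard] at this
    exact this
  calc ((symSet ι).filter fun A => ∃ v : ι → ℝ, ∃ c : ℝ, c ≠ 0 ∧
        z ≤ (univ.filter fun j => v j = c).card ∧ toR A *ᵥ v = 0).card *
      (2 ^ (Nat.choose (t + 1) 2) * 2 ^ (Nat.choose (k + 1) 2))
      ≤ (((univ : Finset ι).powersetCard z).biUnion ev).card *
          (2 ^ (Nat.choose (t + 1) 2) * 2 ^ (Nat.choose (k + 1) 2)) :=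
        Nat.mul_le_mul_right _ (Finset.card_le_card hsub)
    _ ≤ (∑ Z ∈ (univ : Finset ι).powersetCard z, (ev Z).card) *
          (2 ^ (Nat.choose (t + 1) 2) * 2 ^ (Nat.choose (k + 1) 2)) :=
        Nat.mul_le_mul_right _ Finset.card_biUnion_le
    _ = ∑ Z ∈ (univ : Finset ι).powersetCard z, (ev Z).card *
          (2 ^ (Nat.choose (t + 1) 2) * 2 ^ (Nat.choose (k + 1) 2)) :=
        Finset.sum_mul _ _ _
    _ ≤ ∑ _Z ∈ (univ : Finset ι).powersetCard z,
          (z.choose t * G t t * 2 ^ (Nat.choose (k + 1) 2) +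
            2 ^ (Fintype.card ι - z) * 2 ^ (Nat.choose (t + 1) 2)) * (symSet ι).card :=
        Finset.sum_le_sum hone
    _ = (Fintype.card ι).choose z * ((z.choose t * G t t * 2 ^ (Nat.choose (k + 1) 2) +
        2 ^ (Fintype.card ι - z) * 2 ^ (Nat.choose (t + 1) 2)) * (symSet ι).card) := by
        rw [Finset.sum_const, Finset.card_powersetCard, smul_eq_mul, Finset.card_univ]

end Vale.Agent.Lib.P160

namespace Vale.Agent.Lib.P160

open Finset Matrix

open Classical in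
/-- Real form, matching the left side of the numeric lemma `level_num`
(`k = z / 2`, `t = z - z / 2`). -/
theorem h23_levelset_real {ι : Type} [Fintype ι] [DecidableEq ι] (z : ℕ)
    (hz : z ≤ Fintype.card ι) :
    (((symSet ι).filter fun A => ∃ v : ι → ℝ, ∃ c : ℝ, c ≠ 0 ∧
        z ≤ (univ.filter fun j => v j = c).card ∧ toR A *ᵥ v = 0).card : ℝ) ≤
      ((4 : ℝ) ^ (Fintype.card ι) * Qr (z - z / 2) +
        (4 : ℝ) ^ (Fintype.card ι) / 2 ^ (Nat.choose (z / 2 + 1) 2)) *
        ((symSet ι).card : ℝ) := by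
  have h := h23_levelset_count (ι := ι) z (z / 2) (z - z / 2) (by omega)
  set n := Fintype.card ι with hn
  set t := z - z / 2 with ht
  set k := z / 2 with hk
  set X := ((symSet ι).filter fun A => ∃ v : ι → ℝ, ∃ c : ℝ, c ≠ 0 ∧
        z ≤ (univ.filter fun j => v j = c).card ∧ toR A *ᵥ v = 0).card with hX
  set N := (symSet ι).card with hN
  have hR : ((X * (2 ^ (Nat.choose (t + 1) 2) * 2 ^ (Nat.choose (k + 1) 2)) : ℕ) : ℝ) ≤
      ((n.choose z * ((z.choose t * G t t * 2 ^ (Nat.choose (k + 1) 2) +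
        2 ^ (n - z) * 2 ^ (Nat.choose (t + 1) 2)) * N) : ℕ) : ℝ) := by
    exact_mod_cast h
  push_cast at hR
  have hG : (G t t : ℝ) = 2 ^ (Nat.choose (t + 1) 2) * Qr t := by
    rw [G_eq' (le_refl t)]
    simp
  rw [hG] at hR
  set a : ℝ := 2 ^ (Nat.choose (t + 1) 2) with ha
  set b : ℝ := 2 ^ (Nat.choose (k + 1) 2) with hb
  have hapos : 0 < a := by positivity
  have hbpos : 0 < b := by positivity
  have hQ : 0 < Qr t := Qr_pos t
  have hNnn : (0 : ℝ) ≤ (N : ℝ) := Nat.cast_nonneg N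
  have h2n : (2 : ℝ) ^ n * 2 ^ n = 4 ^ n := by
    rw [← mul_pow]
    norm_num
  have c1 : ((n.choose z : ℕ) : ℝ) ≤ 2 ^ n := by
    exact_mod_cast Nat.choose_le_two_pow n z
  have c2 : ((z.choose t : ℕ) : ℝ) ≤ 2 ^ n := by
    have h1 : ((z.choose t : ℕ) : ℝ) ≤ 2 ^ z := by
      exact_mod_cast Nat.choose_le_two_pow z t
    have h2 : (2 : ℝ) ^ z ≤ 2 ^ n := pow_le_pow_right₀ (by norm_num) hz
    exact h1.trans h2
  have c3 : (2 : ℝ) ^ (n - z) ≤ 2 ^ n := pow_le_pow_right₀ (by norm_num) (Nat.sub_le n z)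
  have c0 : (0 : ℝ) ≤ ((n.choose z : ℕ) : ℝ) := Nat.cast_nonneg _
  have e1 : ((n.choose z : ℕ) : ℝ) * ((z.choose t : ℕ) : ℝ) ≤ 4 ^ n := by
    rw [← h2n]
    exact mul_le_mul c1 c2 (Nat.cast_nonneg _) (by positivity)
  have e2 : ((n.choose z : ℕ) : ℝ) * (2 : ℝ) ^ (n - z) ≤ 4 ^ n := by
    rw [← h2n]
    exact mul_le_mul c1 c3 (by positivity) (by positivity)
  have hq : 0 ≤ a * Qr t * b * (N : ℝ) := by positivity
  have haN : 0 ≤ a * (N : ℝ) := by positivity
  have key : (X : ℝ) * (a * b) ≤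
      ((4 : ℝ) ^ n * Qr t + (4 : ℝ) ^ n / b) * (N : ℝ) * (a * b) := by
    calc (X : ℝ) * (a * b)
        ≤ ((n.choose z : ℕ) : ℝ) * ((((z.choose t : ℕ) : ℝ) * (a * Qr t) * b +
            2 ^ (n - z) * a) * (N : ℝ)) := hR
      _ = (((n.choose z : ℕ) : ℝ) * ((z.choose t : ℕ) : ℝ)) * (a * Qr t * b * (N : ℝ)) +
            (((n.choose z : ℕ) : ℝ) * 2 ^ (n - z)) * (a * (N : ℝ)) := by ring
      _ ≤ (4 : ℝ) ^ n * (a * Qr t * b * (N : ℝ)) + (4 : ℝ) ^ n * (a * (N : ℝ)) :=
          add_le_add (mul_le_mul_of_nonneg_right e1 hq) (mul_le_mul_of_nonneg_right e2 haN)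
      _ = ((4 : ℝ) ^ n * Qr t + (4 : ℝ) ^ n / b) * (N : ℝ) * (a * b) := by
          field_simp
  exact le_of_mul_le_mul_right key (by positivity)

open Classical in
/-- The same for `n x n` matrices, with the number of symmetric sign matrices written out. -/
theorem h23_levelset_fin (n z : ℕ) (hz : z ≤ n) :
    (((symSet (Fin n)).filter fun A => ∃ v : Fin n → ℝ, ∃ c : ℝ, c ≠ 0 ∧
        z ≤ (univ.filter fun j => v j = c).card ∧ toR A *ᵥ v = 0).card : ℝ) ≤
      ((4 : ℝ) ^ n * Qr (z - z / 2) + (4 : ℝ) ^ n / 2 ^ (Nat.choose (z / 2 + 1) 2)) *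
        (2 : ℝ) ^ (Nat.choose (n + 1) 2) := by
  have h := h23_levelset_real (ι := Fin n) z (by rw [Fintype.card_fin]; exact hz)
  rw [Fintype.card_fin, card_symSet, Fintype.card_fin] at h
  exact_mod_cast h

end Vale.Agent.Lib.P160
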