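import Mathlib
import Vale.Agent.Lib.P160.helper4.SSDefs

/-!
# P160, piece SS-2b: the explicit sums `outF`, `inF` of the lazy chain on subsets of `Fin n`
-/

namespace Vale.Agent.Lib.P160.H23

open Finset Vale.Agent.Lib.P160.H4

/-- Indicator of `S` as a function on the natural numbers (zero outside `Fin n`). -/
noncomputable def ind (n : ℕ) (S : Finset (Fin n)) (i : ℕ) : ℝ :=
  if h : i < n then (if (⟨i, h⟩ : Fin n) ∈ S then 1 else 0) else 0

theorem ind_val (n : ℕ) (S : Finset (Fin n)) (j : Fin n) :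
    ind n S j.val = if j ∈ S then 1 else 0 := by
  unfold ind
  rw [dif_pos j.isLt]

theorem ind_nonneg (n : ℕ) (S : Finset (Fin n)) (i : ℕ) : 0 ≤ ind n S i := by
  unfold ind
  split_ifs <;> norm_num

theorem ind_le_one (n : ℕ) (S : Finset (Fin n)) (i : ℕ) : ind n S i ≤ 1 := by
  unfold ind
  split_ifs <;> norm_num

theorem sum_fin_ite_eq (n a : ℕ) (h : ℕ → ℝ) :
    ∑ j : Fin n, (if j.val = a then h j.val else 0) = if a < n then h a else 0 := by
  rw [Fin.sum_univ_eq_sum_range (fun j => if j = a then h j else 0) n, Finset.sum_ite_eq']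
  simp

theorem outF_eq (n : ℕ) (S : Finset (Fin n)) :
    outF n S = (∑ k ∈ range n, if k + 1 < n then
        (1 - ((k + 1 : ℕ) : ℝ) / n) * (ind n S k * (1 - ind n S (k + 1))) else 0)
      + (if 0 < n then (1 / 2 : ℝ) * (1 - ind n S 0) else 0) := by
  unfold outF
  congr 1
  · rw [← Fin.sum_univ_eq_sum_range (fun k => if k + 1 < n then
        (1 - ((k + 1 : ℕ) : ℝ) / n) * (ind n S k * (1 - ind n S (k + 1))) else 0) n]
    refine Finset.sum_congr rfl (fun k _ => ?_)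
    have h := sum_fin_ite_eq n (k.val + 1)
      (fun j => (1 - (j : ℝ) / n) * (ind n S k.val * (1 - ind n S j)))
    refine Eq.trans (Finset.sum_congr rfl (fun j _ => ?_)) h
    rw [ind_val, ind_val]
    by_cases h1 : j.val = k.val + 1 <;> by_cases h2 : k ∈ S <;> by_cases h3 : j ∈ S <;>
      simp [h1, h2, h3]
  · have h := sum_fin_ite_eq n 0 (fun j => (1 / 2 : ℝ) * (1 - ind n S j))
    refine Eq.trans (Finset.sum_congr rfl (fun j _ => ?_)) h
    rw [ind_val]
    by_cases h1 : j.val = 0 <;> by_cases h3 : j ∈ S <;> simp [h1, h3]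

theorem inF_eq (n : ℕ) (S : Finset (Fin n)) :
    inF n S = (∑ k ∈ range n, if k + 1 < n then
        (1 - ((k + 1 : ℕ) : ℝ) / n) * ((1 - ind n S k) * ind n S (k + 1)) else 0)
      + (if 0 < n then (1 / 2 : ℝ) * ind n S 0 else 0) := by
  unfold inF
  congr 1
  · rw [← Fin.sum_univ_eq_sum_range (fun k => if k + 1 < n then
        (1 - ((k + 1 : ℕ) : ℝ) / n) * ((1 - ind n S k) * ind n S (k + 1)) else 0) n]
    refine Finset.sum_congr rfl (fun k _ => ?_)
    have h := sum_fin_ite_eq n (k.val + 1)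
      (fun j => (1 - (j : ℝ) / n) * ((1 - ind n S k.val) * ind n S j))
    refine Eq.trans (Finset.sum_congr rfl (fun j _ => ?_)) h
    rw [ind_val, ind_val]
    by_cases h1 : j.val = k.val + 1 <;> by_cases h2 : k ∈ S <;> by_cases h3 : j ∈ S <;>
      simp [h1, h2, h3]
  · have h := sum_fin_ite_eq n 0 (fun j => (1 / 2 : ℝ) * ind n S j)
    refine Eq.trans (Finset.sum_congr rfl (fun j _ => ?_)) h
    rw [ind_val]
    by_cases h1 : j.val = 0 <;> by_cases h3 : j ∈ S <;> simp [h1, h3]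

/-- Summation by parts. -/
theorem sbp (N : ℝ) (s : ℕ → ℝ) (m : ℕ) :
    ∑ k ∈ range m, (1 - ((k + 1 : ℕ) : ℝ) / N) * (s (k + 1) - s k)
      = (1 - (m : ℝ) / N) * s m + (∑ j ∈ range m, s j) / N - s 0 := by
  induction m with
  | zero => simp
  | succ m ih =>
    rw [Finset.sum_range_succ, ih, Finset.sum_range_succ]
    push_cast
    ring

theorem sum_ind (n : ℕ) (S : Finset (Fin n)) :
    ∑ j ∈ range n, ind n S j = (S.card : ℝ) := by
  rw [← Fin.sum_univ_eq_sum_range (fun j => ind n S j) n]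
  simp only [ind_val]
  rw [Finset.sum_boole]
  simp

theorem inF_sub_outF (n : ℕ) (hn : 1 ≤ n) (S : Finset (Fin n)) :
    inF n S - outF n S = ((S.card : ℝ) - n / 2) / n := by
  obtain ⟨m, rfl⟩ : ∃ m, n = m + 1 := ⟨n - 1, by omega⟩
  rw [inF_eq, outF_eq]
  have hpos : 0 < m + 1 := Nat.succ_pos m
  rw [if_pos hpos, if_pos hpos, Finset.sum_range_succ, Finset.sum_range_succ,
    if_neg (lt_irrefl _), if_neg (lt_irrefl _), add_zero, add_zero]
  have h1 : ∀ f : ℕ → ℝ,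
      ∑ k ∈ range m, (if k + 1 < m + 1 then f k else 0) = ∑ k ∈ range m, f k := by
    intro f
    refine Finset.sum_congr rfl (fun k hk => ?_)
    rw [if_pos (by have := Finset.mem_range.mp hk; omega)]
  rw [h1, h1]
  have hsbp := sbp (((m + 1 : ℕ) : ℝ)) (ind (m + 1) S) m
  have hcard := sum_ind (m + 1) S
  rw [Finset.sum_range_succ] at hcard
  have hcomb : (∑ k ∈ range m, (1 - ((k + 1 : ℕ) : ℝ) / ((m + 1 : ℕ) : ℝ))
        * ((1 - ind (m + 1) S k) * ind (m + 1) S (k + 1)))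
      - (∑ k ∈ range m, (1 - ((k + 1 : ℕ) : ℝ) / ((m + 1 : ℕ) : ℝ))
        * (ind (m + 1) S k * (1 - ind (m + 1) S (k + 1))))
      = ∑ k ∈ range m, (1 - ((k + 1 : ℕ) : ℝ) / ((m + 1 : ℕ) : ℝ))
        * (ind (m + 1) S (k + 1) - ind (m + 1) S k) := by
    rw [← Finset.sum_sub_distrib]
    refine Finset.sum_congr rfl (fun k _ => ?_)
    ring
  have hN : (((m + 1 : ℕ) : ℝ)) ≠ 0 := by positivity
  have hone : (1 - (m : ℝ) / ((m + 1 : ℕ) : ℝ)) = 1 / ((m + 1 : ℕ) : ℝ) := by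
    field_simp
    push_cast
    ring
  rw [hone] at hsbp
  calc (∑ k ∈ range m, (1 - ((k + 1 : ℕ) : ℝ) / ((m + 1 : ℕ) : ℝ))
          * ((1 - ind (m + 1) S k) * ind (m + 1) S (k + 1)) + 1 / 2 * ind (m + 1) S 0)
        - (∑ k ∈ range m, (1 - ((k + 1 : ℕ) : ℝ) / ((m + 1 : ℕ) : ℝ))
          * (ind (m + 1) S k * (1 - ind (m + 1) S (k + 1))) + 1 / 2 * (1 - ind (m + 1) S 0))
      = (∑ k ∈ range m, (1 - ((k + 1 : ℕ) : ℝ) / ((m + 1 : ℕ) : ℝ))
          * (ind (m + 1) S (k + 1) - ind (m + 1) S k)) + (ind (m + 1) S 0 - 1 / 2) := by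
        rw [← hcomb]; ring
    _ = ((S.card : ℝ) - ((m + 1 : ℕ) : ℝ) / 2) / ((m + 1 : ℕ) : ℝ) := by
        rw [hsbp, ← hcard]
        field_simp
        ring

theorem outF_le (n : ℕ) (S : Finset (Fin n)) : outF n S ≤ n := by
  rcases Nat.eq_zero_or_pos n with rfl | hn
  · simp [outF]
  rw [outF_eq]
  have hn' : (0 : ℝ) < n := by exact_mod_cast hn
  have hinv : 1 / (n : ℝ) ≤ 1 := by
    rw [div_le_one hn']
    exact_mod_cast hn
  have h1 : ∑ k ∈ range n, (if k + 1 < n then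
        (1 - ((k + 1 : ℕ) : ℝ) / n) * (ind n S k * (1 - ind n S (k + 1))) else 0)
      ≤ ∑ _k ∈ range n, (1 - 1 / (n : ℝ)) := by
    refine Finset.sum_le_sum (fun k _ => ?_)
    split_ifs with h
    · have ha : 0 ≤ ind n S k := ind_nonneg n S k
      have ha1 : ind n S k ≤ 1 := ind_le_one n S k
      have hb : 0 ≤ ind n S (k + 1) := ind_nonneg n S (k + 1)
      have hb1 : ind n S (k + 1) ≤ 1 := ind_le_one n S (k + 1)
      have hk1 : (1 : ℝ) ≤ ((k + 1 : ℕ) : ℝ) := by exact_mod_cast Nat.succ_le_succ (Nat.zero_le k)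
      have hw1 : ((k + 1 : ℕ) : ℝ) / n ≥ 1 / (n : ℝ) := by
        exact div_le_div_of_nonneg_right hk1 hn'.le
      have hkn : ((k + 1 : ℕ) : ℝ) ≤ n := by exact_mod_cast h.le
      have hw0 : ((k + 1 : ℕ) : ℝ) / n ≤ 1 := by
        rw [div_le_one hn']; exact hkn
      have hprod : ind n S k * (1 - ind n S (k + 1)) ≤ 1 := by nlinarith
      have hprod0 : 0 ≤ ind n S k * (1 - ind n S (k + 1)) := mul_nonneg ha (by linarith)
      nlinarith
    · linarith
  have h2 : (if 0 < n then (1 / 2 : ℝ) * (1 - ind n S 0) else 0) ≤ 1 / 2 := by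
    rw [if_pos hn]
    have := ind_nonneg n S 0
    linarith
  rw [Finset.sum_const, Finset.card_range, nsmul_eq_mul] at h1
  have h3 : (n : ℝ) * (1 - 1 / (n : ℝ)) = n - 1 := by
    field_simp
  linarith

theorem outF_ge (n : ℕ) (S : Finset (Fin n)) : (desc n S : ℝ) / 2 ≤ outF n S := by
  unfold outF desc
  have hentry : 0 ≤ ∑ j : Fin n, (if j.val = 0 ∧ j ∉ S then (1 / 2 : ℝ) else 0) :=
    Finset.sum_nonneg (fun j _ => by split_ifs <;> norm_num)
  have hcard : (((univ.filter fun k : Fin n =>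
        2 * (k.val + 1) ≤ n ∧ k ∈ S ∧ ∀ j : Fin n, j.val = k.val + 1 → j ∉ S).card : ℕ) : ℝ) / 2
      = ∑ k : Fin n, (if (2 * (k.val + 1) ≤ n ∧ k ∈ S ∧ ∀ j : Fin n, j.val = k.val + 1 → j ∉ S)
          then (1 / 2 : ℝ) else 0) := by
    rw [Finset.card_filter]
    push_cast
    rw [Finset.sum_div]
    refine Finset.sum_congr rfl (fun k _ => ?_)
    split_ifs <;> norm_num
  rw [hcard]
  have hmain : ∑ k : Fin n,
      (if (2 * (k.val + 1) ≤ n ∧ k ∈ S ∧ ∀ j : Fin n, j.val = k.val + 1 → j ∉ S)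
          then (1 / 2 : ℝ) else 0)
      ≤ ∑ k : Fin n, ∑ j : Fin n,
        (if j.val = k.val + 1 ∧ k ∈ S ∧ j ∉ S then 1 - (j.val : ℝ) / n else 0) := by
    refine Finset.sum_le_sum (fun k _ => ?_)
    have hnn : ∀ j : Fin n,
        0 ≤ (if j.val = k.val + 1 ∧ k ∈ S ∧ j ∉ S then 1 - (j.val : ℝ) / n else 0) := by
      intro j
      split_ifs
      · have hn' : (0 : ℝ) < n := by
          exact_mod_cast (lt_of_le_of_lt (Nat.zero_le _) j.isLt)
        have : (j.val : ℝ) / n ≤ 1 := by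
          rw [div_le_one hn']; exact_mod_cast j.isLt.le
        linarith
      · exact le_rfl
    split_ifs with hc
    · obtain ⟨h2, hkS, hj⟩ := hc
      have hlt : k.val + 1 < n := by omega
      have hj0 : (⟨k.val + 1, hlt⟩ : Fin n) ∉ S := hj ⟨k.val + 1, hlt⟩ rfl
      have hterm : (if (⟨k.val + 1, hlt⟩ : Fin n).val = k.val + 1 ∧ k ∈ S
            ∧ (⟨k.val + 1, hlt⟩ : Fin n) ∉ S
          then 1 - (((⟨k.val + 1, hlt⟩ : Fin n).val : ℕ) : ℝ) / n else 0)
          ≤ ∑ j : Fin n,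
            (if j.val = k.val + 1 ∧ k ∈ S ∧ j ∉ S then 1 - (j.val : ℝ) / n else 0) :=
        Finset.single_le_sum (f := fun j : Fin n =>
          (if j.val = k.val + 1 ∧ k ∈ S ∧ j ∉ S then 1 - (j.val : ℝ) / n else 0))
          (fun j _ => hnn j) (Finset.mem_univ _)
      rw [if_pos ⟨rfl, hkS, hj0⟩] at hterm
      have hn' : (0 : ℝ) < n := by
        exact_mod_cast (lt_of_le_of_lt (Nat.zero_le _) hlt)
      have h2' : (2 : ℝ) * ((k.val + 1 : ℕ) : ℝ) ≤ n := by exact_mod_cast h2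
      have hhalf : ((k.val + 1 : ℕ) : ℝ) / n ≤ 1 / 2 := by
        rw [div_le_iff₀ hn']
        linarith
      have hval : (((⟨k.val + 1, hlt⟩ : Fin n).val : ℕ) : ℝ) = ((k.val + 1 : ℕ) : ℝ) := rfl
      rw [hval] at hterm
      linarith
    · exact Finset.sum_nonneg (fun j _ => hnn j)
  linarith

end Vale.Agent.Lib.P160.H23
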